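import Vale.Agent.P181.H382.H112.Defs
import Vale.Agent.P181.TL.H214.UpB
import Vale.Agent.P181.TL.H639.BalB

set_option autoImplicit false

/-!
# P181, LS (S1): the upper bound by multisets of pairs
-/

open MvPolynomial

namespace Vale.Agent.P181.H382.H214

open Vale.Agent.P181.T4 (HW)
open Vale.Agent.P181.H280 (plethMult)
open Vale.Agent.P181.SZ
open Vale.Agent.P181.TL (KK dn2)
open Vale.Agent.P181.SZ.R1b (pm pm_apply' coeff_pm exists_perm_of_map_eq cmp coeff_cmp cdeg)
open Vale.Agent.P181.TL.H214 (cf cf_mem coeff_cf ins_rs ins r0 rs rs_apply)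
open Vale.Agent.P181.H382.H112

/-- The multiplicity function of a family of pairs. -/
noncomputable def cnt {a : ℕ} {P : Type} [DecidableEq P] (q : Fin a → P) (p : P) : Fin (a + 1) :=
  ⟨(Finset.univ.filter fun j => q j = p).card,
    Nat.lt_succ_of_le ((Finset.card_le_univ _).trans (Fintype.card_fin a).le)⟩

lemma cnt_sum {a : ℕ} {P : Type} [Fintype P] [DecidableEq P] (q : Fin a → P) (g : P → ℕ) :
    ∑ p, (cnt q p : ℕ) * g p = ∑ j, g (q j) := by
  rw [← Finset.sum_fiberwise Finset.univ q]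
  refine Finset.sum_congr rfl fun p _ => ?_
  have h : ∀ j ∈ Finset.univ.filter (fun j => q j = p), g (q j) = g p := fun j hj => by
    rw [(Finset.mem_filter.1 hj).2]
  rw [Finset.sum_congr rfl h, Finset.sum_const, smul_eq_mul]
  rfl

lemma perm_of_cnt {a : ℕ} {P : Type} [DecidableEq P] (q q₀ : Fin a → P) (h : cnt q = cnt q₀) :
    ∃ τ : Equiv.Perm (Fin a), q₀ = q ∘ τ := by
  refine exists_perm_of_map_eq q q₀ ?_
  rw [Multiset.ext]
  intro p
  have h1 := congrArg Fin.val (congrFun h p)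
  change (Finset.univ.filter fun j => q j = p).card = (Finset.univ.filter fun j => q₀ j = p).card
    at h1
  rw [Finset.card_def, Finset.card_def, Finset.filter_val, Finset.filter_val] at h1
  rw [Multiset.count_map, Multiset.count_map]
  simp only [eq_comm] at h1 ⊢
  exact h1

/-- **(S1)** -/
theorem upC : UpC := by
  classical
  intro a b k lam f ha hf hsum
  refine (R1a a b (k + 2) lam).trans ?_
  let tau : Fin (k + 1) → ℕ := fun i => lam i.succ.succ
  let P : Type := Fin (lam 1 + 1) × Fin (dn2 lam + 1)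
  let M : Finset (Fin (lam 1 + 1) × Fin (dn2 lam + 1) → Fin (a + 1)) :=
    Finset.univ.filter fun m : Fin (lam 1 + 1) × Fin (dn2 lam + 1) → Fin (a + 1) =>
      ∑ p, (m p : ℕ) = a ∧ ∑ p, (m p : ℕ) * (p.1 : ℕ) = lam 1 ∧
        ∑ p, (m p : ℕ) * (p.2 : ℕ) = dn2 lam
  have hNP : NP a (lam 1) (dn2 lam) = M.card := rfl
  have hrep : ∀ m : M, ∃ d c : Fin a → ℕ, ∑ j, c j = ∑ j, f j ∧
      ∀ q : Fin a → Fin (lam 1 + 1) × Fin (dn2 lam + 1), cnt q = m.1 →
        ∃ τ : Equiv.Perm (Fin a), (∀ j, d j = ((q (τ j)).1 : ℕ)) ∧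
          ∀ j, c j = ((q (τ j)).2 : ℕ) := by
    intro m
    by_cases h : ∃ q₀ : Fin a → Fin (lam 1 + 1) × Fin (dn2 lam + 1), cnt q₀ = m.1
    · obtain ⟨q₀, h0⟩ := h
      refine ⟨fun j => (q₀ j).1, fun j => (q₀ j).2, ?_, fun q hq => ?_⟩
      · have h1 := cnt_sum q₀ fun p => (p.2 : ℕ)
        rw [← h1, h0, hsum]
        exact (Finset.mem_filter.1 m.2).2.2.2
      · obtain ⟨τ, hτ⟩ := perm_of_cnt q q₀ (hq.trans h0.symm)
        refine ⟨τ, fun j => ?_, fun j => ?_⟩
        · rw [hτ]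
          rfl
        · rw [hτ]
          rfl
    · exact ⟨0, f, rfl, fun q hq => absurd ⟨q, hq⟩ h⟩
  choose d c hc hq using hrep
  let L : TI a b (k + 2) (tl lam) →ₗ[ℂ] ((m : M) → KK (k + 1) (Fin a) (c m) tau) :=
    LinearMap.pi fun m =>
      ((cmp (m := k + 1) (c m)).comp ((cf (d m)).comp
        (TI a b (k + 2) (tl lam)).subtype)).codRestrict (KK (k + 1) (Fin a) (c m) tau)
        fun g => TL.H639.cmp_mem (c m) (cf_mem g.2.1 (d m))
  have hL : Function.Injective L := by
    rw [← LinearMap.ker_eq_bot, LinearMap.ker_eq_bot']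
    rintro ⟨g, hg⟩ h
    apply Subtype.ext
    change g = 0
    obtain ⟨h1, h2, h3, h4⟩ := hg
    have h5 : ∀ m : M, cmp (c m) (cf (d m) g) = 0 := fun m =>
      congrArg Subtype.val (congrFun h m)
    apply MvPolynomial.ext
    intro v
    rw [coeff_zero]
    by_contra hv
    have hS : ∑ j, v (0, j) = lam 1 := h1.1 v hv 0
    have hT : ∑ j, ∑ i : Fin (k + 1), v (i.succ, j) = dn2 lam := by
      rw [Finset.sum_comm]
      exact Finset.sum_congr rfl fun i _ => h1.1 v hv i.succ
    have hb1 : ∀ j, v (0, j) < lam 1 + 1 := fun j => by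
      have h6 : v (0, j) ≤ ∑ j, v (0, j) :=
        Finset.single_le_sum (f := fun j => v (0, j)) (fun _ _ => Nat.zero_le _)
          (Finset.mem_univ j)
      omega
    have hb2 : ∀ j, ∑ i : Fin (k + 1), v (i.succ, j) < dn2 lam + 1 := fun j => by
      have h6 : ∑ i : Fin (k + 1), v (i.succ, j) ≤ ∑ j, ∑ i : Fin (k + 1), v (i.succ, j) :=
        Finset.single_le_sum (f := fun j => ∑ i : Fin (k + 1), v (i.succ, j))
          (fun _ _ => Nat.zero_le _) (Finset.mem_univ j)
      omega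
    let q : Fin a → Fin (lam 1 + 1) × Fin (dn2 lam + 1) := fun j => (⟨_, hb1 j⟩, ⟨_, hb2 j⟩)
    have hm : cnt q ∈ M := by
      rw [Finset.mem_filter]
      refine ⟨Finset.mem_univ _, ?_, ?_, ?_⟩
      · have h6 := cnt_sum q fun _ => 1
        simp only [mul_one] at h6
        rw [h6, Finset.sum_const, Finset.card_univ, Fintype.card_fin, smul_eq_mul, mul_one]
      · rw [cnt_sum q fun p => (p.1 : ℕ)]
        exact hS
      · rw [cnt_sum q fun p => (p.2 : ℕ)]
        exact hT
    obtain ⟨τ, hd, hcc⟩ := hq ⟨cnt q, hm⟩ q rfl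
    have h6 := coeff_pm τ.symm g v
    rw [h2 τ.symm] at h6
    have h7 : pm τ.symm v = ins (d ⟨cnt q, hm⟩) (rs (pm τ.symm v)) := by
      conv_lhs => rw [← ins_rs (pm τ.symm v)]
      congr 1
      funext j
      rw [r0, pm_apply', Equiv.symm_symm]
      exact (hd j).symm
    have h8 : cdeg (rs (pm τ.symm v)) = c ⟨cnt q, hm⟩ := by
      funext j
      rw [hcc j, cdeg]
      refine Finset.sum_congr rfl fun i _ => ?_
      rw [rs_apply, pm_apply', Equiv.symm_symm]
    have h9 := congrArg (coeff (rs (pm τ.symm v))) (h5 ⟨cnt q, hm⟩)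
    rw [coeff_cmp, if_pos h8, coeff_cf, ← h7, coeff_zero] at h9
    exact hv (h6.symm.trans h9)
  have h := LinearMap.finrank_le_finrank_of_injective hL
  rw [Module.finrank_pi_fintype] at h
  refine h.trans ?_
  have h2 : ∀ m : M, Module.finrank ℂ (KK (k + 1) (Fin a) (c m) tau) ≤
      Module.finrank ℂ (KK (k + 1) (Fin a) f tau) := fun m =>
    (TL.H639.stable (k + 1) a tau).le_balanced hf (c m) (hc m)
  refine (Finset.sum_le_sum fun m _ => h2 m).trans ?_
  rw [Finset.sum_const, smul_eq_mul, Finset.card_univ, Fintype.card_coe, hNP]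

end Vale.Agent.P181.H382.H214
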